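import Mathlib

/-!
Definitions for the monotone spine drawings of complete bipartite graphs (problem P040).
-/

namespace Vale.Agent.Lib.P040

/-- The edge from the vertex `(ax i, ah i)` to the vertex `(b j, 0)`, for `e = (i, j)`: the graph
of `x = f i j y` over the heights `y` between `0` and `ah i`. -/
def edge {m n : ℕ} (ah : Fin m → ℝ) (f : Fin m → Fin n → ℝ → ℝ) (e : Fin m × Fin n) :
    Set (ℝ × ℝ) :=
  {p | p.2 ∈ Set.uIcc 0 (ah e.1) ∧ p.1 = f e.1 e.2 p.2}

end Vale.Agent.Lib.P040
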