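import Mathlib
import Vale.Agent.Lib.P040.SpineDefs

/-!
Auxiliary lemmas for the monotone spine drawings of complete bipartite graphs (problem P040).
-/

namespace Vale.Agent.Lib.P040

open Finset

/-- The Zarankiewicz factor `d_r = ⌊r/2⌋ * ⌊(r-1)/2⌋`. -/
def zd (r : ℕ) : ℕ := (r / 2) * ((r - 1) / 2)

theorem zd_add_two (n : ℕ) : zd (n + 2) ≤ zd n + n := by
  unfold zd
  rcases Nat.even_or_odd' n with ⟨t, rfl | rfl⟩
  · have h1 : (2 * t + 2) / 2 = t + 1 := by omega
    have h2 : (2 * t + 2 - 1) / 2 = t := by omega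
    have h3 : 2 * t / 2 = t := by omega
    rw [h1, h2, h3]
    rcases t with _ | s
    · simp
    · have h4 : (2 * (s + 1) - 1) / 2 = s := by omega
      rw [h4]
      nlinarith
  · have h1 : (2 * t + 1 + 2) / 2 = t + 1 := by omega
    have h2 : (2 * t + 1 + 2 - 1) / 2 = t + 1 := by omega
    have h3 : (2 * t + 1) / 2 = t := by omega
    have h4 : (2 * t + 1 - 1) / 2 = t := by omega
    rw [h1, h2, h3, h4]
    nlinarith

theorem sum_min_ge : ∀ n : ℕ, zd n ≤ ∑ r ∈ range n, min r (n - 1 - r)
  | 0 => by simp [zd]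
  | 1 => by simp [zd]
  | (n + 2) => by
    have ih := sum_min_ge n
    have key : ∑ r ∈ range (n + 2), min r (n + 2 - 1 - r)
        = (∑ r ∈ range n, min r (n - 1 - r)) + n := by
      rw [Finset.sum_range_succ, Finset.sum_range_succ']
      have : ∀ r ∈ range n, min (r + 1) (n + 2 - 1 - (r + 1)) = min r (n - 1 - r) + 1 := by
        intro r hr
        have hr' : r < n := Finset.mem_range.mp hr
        omega
      rw [Finset.sum_congr rfl this, Finset.sum_add_distrib]
      simp
    rw [key]
    have := zd_add_two n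
    omega

/-- For an injective real family the ranks are a bijection onto `range n`. -/
theorem sum_rank (n : ℕ) (b : Fin n → ℝ) (hb : Function.Injective b) (g : ℕ → ℕ) :
    ∑ j : Fin n, g (univ.filter (fun l => b l < b j)).card = ∑ r ∈ range n, g r := by
  classical
  set L : Fin n → ℕ := fun j => (univ.filter (fun l => b l < b j)).card with hL
  have hLinj : Function.Injective L := by
    intro j j' h
    by_contra hne
    have hbne : b j ≠ b j' := fun h' => hne (hb h')
    rcases lt_or_gt_of_ne hbne with hlt | hlt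
    · have : L j < L j' := by
        apply Finset.card_lt_card
        rw [Finset.ssubset_iff_of_subset]
        · exact ⟨j, by simp [hlt], by simp⟩
        · intro l hl
          simp only [Finset.mem_filter, Finset.mem_univ, true_and] at hl ⊢
          exact hl.trans hlt
      omega
    · have : L j' < L j := by
        apply Finset.card_lt_card
        rw [Finset.ssubset_iff_of_subset]
        · exact ⟨j', by simp [hlt], by simp⟩
        · intro l hl
          simp only [Finset.mem_filter, Finset.mem_univ, true_and] at hl ⊢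
          exact hl.trans hlt
      omega
  have hLlt : ∀ j, L j < n := by
    intro j
    have h1 : (univ.filter (fun l => b l < b j)).card < (univ : Finset (Fin n)).card := by
      apply Finset.card_lt_card
      rw [Finset.ssubset_iff_of_subset (Finset.filter_subset _ _)]
      exact ⟨j, by simp, by simp⟩
    simpa using h1
  have himg : (univ : Finset (Fin n)).image L = range n := by
    apply Finset.eq_of_subset_of_card_le
    · intro r hr
      rcases Finset.mem_image.mp hr with ⟨j, _, rfl⟩
      exact Finset.mem_range.mpr (hLlt j)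
    · rw [Finset.card_image_of_injective _ hLinj]
      simp
  rw [← himg, Finset.sum_image (fun x _ y _ h => hLinj h)]

theorem count_inner (n : ℕ) (b : Fin n → ℝ) (hb : Function.Injective b) (t : Fin n → ℝ)
    (ht : ∀ j, t j ≠ 0) :
    zd n ≤ (univ.filter (fun x : Fin n × Fin n => (b x.1 - b x.2) * t x.1 < 0)).card := by
  classical
  rw [Finset.card_filter, Fintype.sum_prod_type]
  calc zd n ≤ ∑ r ∈ range n, min r (n - 1 - r) := sum_min_ge n
    _ = ∑ j : Fin n, min (univ.filter (fun l => b l < b j)).card
          (n - 1 - (univ.filter (fun l => b l < b j)).card) :=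
        (sum_rank n b hb (fun r => min r (n - 1 - r))).symm
    _ ≤ ∑ j : Fin n, ∑ l : Fin n, if (b j - b l) * t j < 0 then 1 else 0 := by
        apply Finset.sum_le_sum
        intro j _
        rw [← Finset.card_filter]
        have hpart : (univ.filter (fun l => b l < b j)).card
            + (univ.filter (fun l => b j < b l)).card + 1 = n := by
          have h1 : (univ : Finset (Fin n)) = (univ.filter (fun l => b l < b j)) ∪
              ((univ.filter (fun l => b j < b l)) ∪ {j}) := by
            ext l
            simp only [Finset.mem_univ, Finset.mem_union, Finset.mem_filter, true_and,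
              Finset.mem_singleton, true_iff]
            rcases lt_trichotomy (b l) (b j) with h | h | h
            · exact Or.inl h
            · exact Or.inr (Or.inr (hb h))
            · exact Or.inr (Or.inl h)
          have h2 : (univ : Finset (Fin n)).card = n := by simp
          rw [h1, Finset.card_union_of_disjoint, Finset.card_union_of_disjoint] at h2
          · simpa [add_assoc] using h2
          · rw [Finset.disjoint_left]
            intro l hl hl'
            simp only [Finset.mem_filter, Finset.mem_univ, true_and, Finset.mem_singleton] at hl hl'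
            rw [hl'] at hl
            exact lt_irrefl _ hl
          · rw [Finset.disjoint_left]
            intro l hl hl'
            simp only [Finset.mem_filter, Finset.mem_univ, true_and, Finset.mem_singleton,
              Finset.mem_union] at hl hl'
            rcases hl' with hl' | hl'
            · exact lt_asymm hl hl'
            · rw [hl'] at hl
              exact lt_irrefl _ hl
        rcases lt_or_gt_of_ne (ht j) with hneg | hpos
        · have : (univ.filter (fun l => (b j - b l) * t j < 0))
              = (univ.filter (fun l => b l < b j)) := by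
            ext l
            simp only [Finset.mem_filter, Finset.mem_univ, true_and]
            constructor
            · intro h
              by_contra h'
              rw [not_lt] at h'
              nlinarith
            · intro h
              nlinarith
          rw [this]
          exact min_le_left _ _
        · have : (univ.filter (fun l => (b j - b l) * t j < 0))
              = (univ.filter (fun l => b j < b l)) := by
            ext l
            simp only [Finset.mem_filter, Finset.mem_univ, true_and]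
            constructor
            · intro h
              by_contra h'
              rw [not_lt] at h'
              nlinarith
            · intro h
              nlinarith
          rw [this]
          have : n - 1 - (univ.filter (fun l => b l < b j)).card
              = (univ.filter (fun l => b j < b l)).card := by omega
          rw [← this]
          exact min_le_right _ _

theorem uIcc_sub {u v : ℝ} (hside : 0 < v * u) (hlow : |u| ≤ |v|) :
    Set.uIcc 0 u ⊆ Set.uIcc 0 v := by
  apply Set.uIcc_subset_uIcc Set.left_mem_uIcc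
  rw [Set.mem_uIcc]
  rcases lt_or_gt_of_ne (show v ≠ 0 by rintro rfl; simp at hside) with hv | hv
  · have hu : u < 0 := by nlinarith
    right
    rw [abs_of_neg hu, abs_of_neg hv] at hlow
    constructor <;> linarith
  · have hu : 0 < u := by nlinarith
    left
    rw [abs_of_pos hu, abs_of_pos hv] at hlow
    constructor <;> linarith

theorem cross_exists {m n : ℕ} (ax ah : Fin m → ℝ) (b : Fin n → ℝ)
    (f : Fin m → Fin n → ℝ → ℝ)
    (hcont : ∀ i j, ContinuousOn (f i j) (Set.uIcc 0 (ah i)))
    (htop : ∀ i j, f i j (ah i) = ax i)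
    (hbot : ∀ i j, f i j 0 = b j)
    (hvert : ∀ (e : Fin m × Fin n) (k : Fin m), (ax k, ah k) ∈ edge ah f e → k = e.1)
    (i k : Fin m) (j l : Fin n)
    (hside : 0 < ah i * ah k) (hlow : |ah k| ≤ |ah i|)
    (hcond : (b j - b l) * (f i j (ah k) - ax k) < 0) :
    ∃ p : ℝ × ℝ, p ∈ edge ah f (i, j) ∧ p ∈ edge ah f (k, l) ∧
      (∀ r, p ≠ (ax r, ah r)) ∧ (∀ s, p ≠ (b s, 0)) := by
  have hsub : Set.uIcc 0 (ah k) ⊆ Set.uIcc 0 (ah i) := uIcc_sub hside hlow
  have hg : ContinuousOn (fun y => f i j y - f k l y) (Set.uIcc 0 (ah k)) :=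
    ((hcont i j).mono hsub).sub (hcont k l)
  have h0 : (fun y => f i j y - f k l y) 0 = b j - b l := by simp [hbot]
  have h1 : (fun y => f i j y - f k l y) (ah k) = f i j (ah k) - ax k := by simp [htop]
  have hmem : (0 : ℝ) ∈ Set.uIcc ((fun y => f i j y - f k l y) 0)
      ((fun y => f i j y - f k l y) (ah k)) := by
    rw [h0, h1, Set.mem_uIcc]
    rcases lt_or_ge (b j - b l) 0 with hneg | hpos
    · left
      constructor
      · exact hneg.le
      · nlinarith
    · right
      constructor
      · by_contra hc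
        rw [not_le] at hc
        nlinarith
      · exact hpos
  obtain ⟨y, hy, hy0⟩ := intermediate_value_uIcc hg hmem
  have hy0' : f i j y = f k l y := by
    have : f i j y - f k l y = 0 := hy0
    linarith
  have hyne0 : y ≠ 0 := by
    rintro rfl
    rw [h0] at hy0
    rw [hy0] at hcond
    simp at hcond
  have hynek : y ≠ ah k := by
    rintro rfl
    rw [h1] at hy0
    rw [hy0] at hcond
    simp at hcond
  refine ⟨(f i j y, y), ⟨hsub hy, rfl⟩, ⟨hy, hy0'⟩, ?_, ?_⟩
  · intro r hr
    have hmemr : (ax r, ah r) ∈ edge ah f (i, j) := by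
      rw [← hr]
      exact ⟨hsub hy, rfl⟩
    have hri : r = i := hvert (i, j) r hmemr
    have hyi : y = ah i := by
      have := congrArg Prod.snd hr
      simp only at this
      rw [this, hri]
    rw [hyi, Set.mem_uIcc] at hy
    rw [hyi] at hynek
    rcases hy with ⟨h1, h2⟩ | ⟨h1, h2⟩
    · have hk : 0 < ah k := by
        rcases h1.lt_or_eq with h | h
        · nlinarith
        · rw [← h] at hside
          simp at hside
      have hi : 0 < ah i := by nlinarith
      rw [abs_of_pos hk, abs_of_pos hi] at hlow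
      exact hynek (le_antisymm h2 hlow)
    · have hi : ah i < 0 := by
        rcases h2.lt_or_eq with h | h
        · exact h
        · rw [h] at hside
          simp at hside
      have hk : ah k < 0 := by nlinarith
      rw [abs_of_neg hk, abs_of_neg hi] at hlow
      exact hynek (le_antisymm (by linarith) h1)
  · intro s hs
    have := congrArg Prod.snd hs
    simp only at this
    exact hyne0 this

theorem card_le_encard {α : Type*} (S : Finset α) (T : Set (ℝ × ℝ)) (P : α → ℝ × ℝ → Prop)
    (hex : ∀ x ∈ S, ∃ p, P x p)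
    (hT : ∀ x ∈ S, ∀ p, P x p → p ∈ T)
    (hinj : ∀ x ∈ S, ∀ y ∈ S, ∀ p, P x p → P y p → x = y) :
    (S.card : ℕ∞) ≤ T.encard := by
  classical
  choose! φ hφ using hex
  rw [← Set.encard_coe_eq_coe_finsetCard]
  apply Set.encard_le_encard_of_injOn (f := φ)
  · intro x hx
    exact hT x hx _ (hφ x hx)
  · intro x hx y hy hxy
    exact hinj x hx y hy (φ x) (hφ x hx) (by rw [hxy]; exact hφ y hy)

/-- Orientation data on the first class: `c` lists the vertices above the spine first. -/
theorem pair_props {m : ℕ} (ah : Fin m → ℝ) (hah : ∀ i, ah i ≠ 0) (i k : Fin m)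
    (h : (((i : ℕ) : ℝ) + (if 0 < ah i then 0 else (m : ℝ))
        - (((k : ℕ) : ℝ) + (if 0 < ah k then 0 else (m : ℝ)))) * (if 0 < ah i then -1 else 1) < 0) :
    0 < ah i * ah k ∧ i ≠ k ∧
      ¬ ((((k : ℕ) : ℝ) + (if 0 < ah k then 0 else (m : ℝ))
        - (((i : ℕ) : ℝ) + (if 0 < ah i then 0 else (m : ℝ)))) * (if 0 < ah k then -1 else 1) < 0) := by
  have hi : ((i : ℕ) : ℝ) < m := by exact_mod_cast i.2
  have hk : ((k : ℕ) : ℝ) < m := by exact_mod_cast k.2
  have hi0 : (0 : ℝ) ≤ ((i : ℕ) : ℝ) := Nat.cast_nonneg _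
  have hk0 : (0 : ℝ) ≤ ((k : ℕ) : ℝ) := Nat.cast_nonneg _
  by_cases hpi : 0 < ah i
  · by_cases hpk : 0 < ah k
    · simp only [hpi, hpk, if_true] at h ⊢
      refine ⟨mul_pos hpi hpk, ?_, ?_⟩
      · rintro rfl
        simp at h
      · intro h'
        linarith
    · exfalso
      simp only [hpi, hpk, if_true, if_false] at h
      linarith
  · by_cases hpk : 0 < ah k
    · exfalso
      simp only [hpi, hpk, if_true, if_false] at h
      linarith
    · simp only [hpi, hpk, if_false] at h ⊢
      have hni : ah i < 0 := lt_of_le_of_ne (not_lt.mp hpi) (hah i)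
      have hnk : ah k < 0 := lt_of_le_of_ne (not_lt.mp hpk) (hah k)
      refine ⟨mul_pos_of_neg_of_neg hni hnk, ?_, ?_⟩
      · rintro rfl
        simp at h
      · intro h'
        linarith

theorem spine_main (m n : ℕ) (ax ah : Fin m → ℝ) (b : Fin n → ℝ) (f : Fin m → Fin n → ℝ → ℝ)
    (hah : ∀ i, ah i ≠ 0)
    (hb : Function.Injective b)
    (hcont : ∀ i j, ContinuousOn (f i j) (Set.uIcc 0 (ah i)))
    (htop : ∀ i j, f i j (ah i) = ax i)
    (hbot : ∀ i j, f i j 0 = b j)
    (hvert : ∀ (e : Fin m × Fin n) (k : Fin m), (ax k, ah k) ∈ edge ah f e → k = e.1)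
    (htriple : ∀ (p : ℝ × ℝ) (e1 e2 e3 : Fin m × Fin n), e1 ≠ e2 → e1 ≠ e3 → e2 ≠ e3 →
      p ∈ edge ah f e1 → p ∈ edge ah f e2 → p ∈ edge ah f e3 →
      (∃ i, p = (ax i, ah i)) ∨ ∃ j, p = (b j, 0)) :
    ((zd m * zd n : ℕ) : ℕ∞) ≤
      Set.encard {p : ℝ × ℝ | (∀ i, p ≠ (ax i, ah i)) ∧ (∀ j, p ≠ (b j, 0)) ∧
        ∃ e1 e2 : Fin m × Fin n, e1 ≠ e2 ∧ p ∈ edge ah f e1 ∧ p ∈ edge ah f e2} := by
  classical
  set c : Fin m → ℝ := fun i => ((i : ℕ) : ℝ) + (if 0 < ah i then 0 else (m : ℝ)) with hc
  set s : Fin m → ℝ := fun i => if 0 < ah i then -1 else 1 with hs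
  have hcinj : Function.Injective c := by
    intro i k hik
    have hi : ((i : ℕ) : ℝ) < m := by exact_mod_cast i.2
    have hk : ((k : ℕ) : ℝ) < m := by exact_mod_cast k.2
    have hi0 : (0 : ℝ) ≤ ((i : ℕ) : ℝ) := Nat.cast_nonneg _
    have hk0 : (0 : ℝ) ≤ ((k : ℕ) : ℝ) := Nat.cast_nonneg _
    simp only [hc] at hik
    have hcast : ((i : ℕ) : ℝ) = ((k : ℕ) : ℝ) := by
      by_cases hpi : 0 < ah i <;> by_cases hpk : 0 < ah k <;>
        simp only [hpi, hpk, if_true, if_false] at hik <;> linarith
    exact Fin.ext (by exact_mod_cast hcast)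
  have hsne : ∀ i, s i ≠ 0 := by
    intro i
    simp only [hs]
    split_ifs <;> norm_num
  set pairs : Finset (Fin m × Fin m) :=
    univ.filter (fun x : Fin m × Fin m => (c x.1 - c x.2) * s x.1 < 0) with hpairs
  have hpairs_card : zd m ≤ pairs.card := count_inner m c hcinj s hsne
  set hi : Fin m × Fin m → Fin m := fun x => if |ah x.2| ≤ |ah x.1| then x.1 else x.2 with hhi
  set lo : Fin m × Fin m → Fin m := fun x => if |ah x.2| ≤ |ah x.1| then x.2 else x.1 with hlo
  have hprops : ∀ x ∈ pairs, 0 < ah (hi x) * ah (lo x) ∧ hi x ≠ lo x ∧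
      |ah (lo x)| ≤ |ah (hi x)| ∧ ((hi x = x.1 ∧ lo x = x.2) ∨ (hi x = x.2 ∧ lo x = x.1)) ∧
      (x.2, x.1) ∉ pairs := by
    intro x hx
    rw [hpairs, Finset.mem_filter] at hx
    obtain ⟨h1, h2, h3⟩ := pair_props ah hah x.1 x.2 hx.2
    have h4 : (x.2, x.1) ∉ pairs := by
      rw [hpairs, Finset.mem_filter]
      intro h
      exact h3 h.2
    by_cases hle : |ah x.2| ≤ |ah x.1|
    · have e1 : hi x = x.1 := if_pos hle
      have e2 : lo x = x.2 := if_pos hle
      rw [e1, e2]
      exact ⟨h1, h2, hle, Or.inl ⟨rfl, rfl⟩, h4⟩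
    · have e1 : hi x = x.2 := if_neg hle
      have e2 : lo x = x.1 := if_neg hle
      rw [e1, e2]
      exact ⟨by rw [mul_comm]; exact h1, fun h => h2 h.symm, (not_le.mp hle).le,
        Or.inr ⟨rfl, rfl⟩, h4⟩
  set inner : Fin m × Fin m → Finset (Fin n × Fin n) := fun x =>
    univ.filter (fun y : Fin n × Fin n =>
      (b y.1 - b y.2) * (f (hi x) y.1 (ah (lo x)) - ax (lo x)) < 0) with hinner
  have hinner_card : ∀ x ∈ pairs, zd n ≤ (inner x).card := by
    intro x hx
    obtain ⟨h1, h2, h3, -, -⟩ := hprops x hx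
    apply count_inner n b hb (fun j => f (hi x) j (ah (lo x)) - ax (lo x))
    intro j hj
    have hmem : (ax (lo x), ah (lo x)) ∈ edge ah f (hi x, j) := by
      refine ⟨uIcc_sub h1 h3 Set.right_mem_uIcc, ?_⟩
      simp only
      linarith
    exact h2 (hvert (hi x, j) (lo x) hmem).symm
  set S : Finset (Σ _ : Fin m × Fin m, Fin n × Fin n) := pairs.sigma inner with hS
  have hScard : zd m * zd n ≤ S.card := by
    rw [hS, Finset.card_sigma]
    calc zd m * zd n ≤ pairs.card * zd n := Nat.mul_le_mul_right _ hpairs_card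
      _ = pairs.card • zd n := by simp
      _ ≤ ∑ x ∈ pairs, (inner x).card := Finset.card_nsmul_le_sum _ _ _ hinner_card
  have hfinal : (S.card : ℕ∞) ≤ Set.encard {p : ℝ × ℝ | (∀ i, p ≠ (ax i, ah i)) ∧
      (∀ j, p ≠ (b j, 0)) ∧
      ∃ e1 e2 : Fin m × Fin n, e1 ≠ e2 ∧ p ∈ edge ah f e1 ∧ p ∈ edge ah f e2} := by
    apply card_le_encard S _ (fun q p => p ∈ edge ah f (hi q.1, q.2.1) ∧
      p ∈ edge ah f (lo q.1, q.2.2) ∧ (∀ r, p ≠ (ax r, ah r)) ∧ (∀ t, p ≠ (b t, 0)))
    · intro q hq
      rw [hS, Finset.mem_sigma] at hq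
      obtain ⟨h1, h2, h3, -, -⟩ := hprops q.1 hq.1
      have hq2 := hq.2
      rw [hinner, Finset.mem_filter] at hq2
      exact cross_exists ax ah b f hcont htop hbot hvert (hi q.1) (lo q.1) q.2.1 q.2.2 h1 h3 hq2.2
    · intro q hq p hp
      rw [hS, Finset.mem_sigma] at hq
      obtain ⟨-, h2, -, -, -⟩ := hprops q.1 hq.1
      refine ⟨hp.2.2.1, hp.2.2.2, (hi q.1, q.2.1), (lo q.1, q.2.2), ?_, hp.1, hp.2.1⟩
      intro h
      exact h2 (congrArg Prod.fst h)
    · intro q hq q' hq' p hp hp'
      rw [hS, Finset.mem_sigma] at hq hq'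
      obtain ⟨-, h2, -, h4, h5⟩ := hprops q.1 hq.1
      obtain ⟨-, h2', -, h4', h5'⟩ := hprops q'.1 hq'.1
      have hnv : ¬ ((∃ i, p = (ax i, ah i)) ∨ ∃ j, p = (b j, 0)) := by
        rintro (⟨i, hi'⟩ | ⟨j, hj⟩)
        · exact hp.2.2.1 i hi'
        · exact hp.2.2.2 j hj
      have hne : (hi q.1, q.2.1) ≠ (lo q.1, q.2.2) := fun h => h2 (congrArg Prod.fst h)
      have hne' : (hi q'.1, q'.2.1) ≠ (lo q'.1, q'.2.2) := fun h => h2' (congrArg Prod.fst h)
      have hA : (hi q'.1, q'.2.1) = (hi q.1, q.2.1) ∨ (hi q'.1, q'.2.1) = (lo q.1, q.2.2) := by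
        by_contra hcon
        rw [not_or] at hcon
        exact hnv (htriple p _ _ _ hne (fun h => hcon.1 h.symm) (fun h => hcon.2 h.symm)
          hp.1 hp.2.1 hp'.1)
      have hB : (lo q'.1, q'.2.2) = (hi q.1, q.2.1) ∨ (lo q'.1, q'.2.2) = (lo q.1, q.2.2) := by
        by_contra hcon
        rw [not_or] at hcon
        exact hnv (htriple p _ _ _ hne (fun h => hcon.1 h.symm) (fun h => hcon.2 h.symm)
          hp.1 hp.2.1 hp'.2.1)
      have hq1 : q.1 = (q.1.1, q.1.2) := rfl
      have hq1' : q'.1 = (q'.1.1, q'.1.2) := rfl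
      have key : q.1 = q'.1 ∧ q.2.1 = q'.2.1 ∧ q.2.2 = q'.2.2 := by
        rcases hA with hA | hA <;> rcases hB with hB | hB
        · exact absurd (hA.trans hB.symm) hne'
        · have e1 : hi q'.1 = hi q.1 := (Prod.mk.inj hA).1
          have e2 : lo q'.1 = lo q.1 := (Prod.mk.inj hB).1
          have e3 : q'.2.1 = q.2.1 := (Prod.mk.inj hA).2
          have e4 : q'.2.2 = q.2.2 := (Prod.mk.inj hB).2
          refine ⟨?_, e3.symm, e4.symm⟩
          rcases h4 with ⟨a1, a2⟩ | ⟨a1, a2⟩ <;> rcases h4' with ⟨a1', a2'⟩ | ⟨a1', a2'⟩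
          · exact Prod.ext (by rw [← a1, ← a1', e1]) (by rw [← a2, ← a2', e2])
          · exfalso
            apply h5
            have : (q.1.2, q.1.1) = q'.1 :=
              Prod.ext (by simp only; rw [← a2, ← a2', e2]) (by simp only; rw [← a1, ← a1', e1])
            rw [this]
            exact hq'.1
          · exfalso
            apply h5
            have : (q.1.2, q.1.1) = q'.1 :=
              Prod.ext (by simp only; rw [← a1, ← a1', e1]) (by simp only; rw [← a2, ← a2', e2])
            rw [this]
            exact hq'.1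
          · exact Prod.ext (by rw [← a2, ← a2', e2]) (by rw [← a1, ← a1', e1])
        · have e1 : hi q'.1 = lo q.1 := (Prod.mk.inj hA).1
          have e2 : lo q'.1 = hi q.1 := (Prod.mk.inj hB).1
          exfalso
          rcases h4 with ⟨a1, a2⟩ | ⟨a1, a2⟩ <;> rcases h4' with ⟨a1', a2'⟩ | ⟨a1', a2'⟩
          · apply h5
            have : (q.1.2, q.1.1) = q'.1 :=
              Prod.ext (by simp only; rw [← a2, ← a1', e1]) (by simp only; rw [← a1, ← a2', e2])
            rw [this]
            exact hq'.1
          · apply h2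
            have e5 : q.1 = q'.1 :=
              Prod.ext (by rw [← a1, ← a2', e2]) (by rw [← a2, ← a1', e1])
            exact (by rw [e5] : hi q.1 = hi q'.1).trans e1
          · apply h2
            have e5 : q.1 = q'.1 :=
              Prod.ext (by rw [← a2, ← a1', e1]) (by rw [← a1, ← a2', e2])
            exact (by rw [e5] : hi q.1 = hi q'.1).trans e1
          · apply h5
            have : (q.1.2, q.1.1) = q'.1 :=
              Prod.ext (by simp only; rw [← a1, ← a2', e2]) (by simp only; rw [← a2, ← a1', e1])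
            rw [this]
            exact hq'.1
        · exact absurd (hA.trans hB.symm) hne'
      obtain ⟨k1, k2, k3⟩ := key
      rcases q with ⟨q1, q2a, q2b⟩
      rcases q' with ⟨q1', q2a', q2b'⟩
      simp only at k1 k2 k3
      subst k1 k2 k3
      rfl
  calc ((zd m * zd n : ℕ) : ℕ∞) ≤ (S.card : ℕ∞) := by exact_mod_cast hScard
    _ ≤ _ := hfinal

end Vale.Agent.Lib.P040
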